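import Mathlib
import Vale.Agent.P031.Main

/-!
# P031, Q2 (Erdős–Hall): the counting function of totient values is asymptotically linear in dilations

If `V x` is the number of distinct values `φ n ≤ x`, then `V (c x) / V x → c` for every `c > 1`.
-/

open Filter Topology

namespace Vale.Agent.Results.P031.ErdosHallRatio

theorem result (c : ℝ) (hc : 1 < c) :
    Tendsto (fun x : ℝ =>
      (Set.ncard {v : ℕ | (∃ n : ℕ, 0 < n ∧ Nat.totient n = v) ∧ (v : ℝ) ≤ c * x} : ℝ) /
      (Set.ncard {v : ℕ | (∃ n : ℕ, 0 < n ∧ Nat.totient n = v) ∧ (v : ℝ) ≤ x} : ℝ))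
      atTop (𝓝 c) :=
  Vale.Agent.P031.erdos_hall c hc

end Vale.Agent.Results.P031.ErdosHallRatio
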